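import Vale.Agent.helper9.Borsuk.Instance

namespace Vale.Agent.Results.P052.Dim63

/-- Borsuk's conjecture fails in dimension 63: a finite set of positive diameter in `ℝ^63`
is not a union of 64 subsets of smaller diameter. -/
theorem result :
    ∃ Y : Set (EuclideanSpace ℝ (Fin 63)), Y.Finite ∧ 0 < Metric.diam Y ∧
      ¬ ∃ P : Fin 64 → Set (EuclideanSpace ℝ (Fin 63)), Y = ⋃ i, P i ∧
        ∀ i, Metric.diam (P i) < Metric.diam Y :=
  Vale.Agent.helper9.Borsuk.main_dim63

end Vale.Agent.Results.P052.Dim63
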